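import Vale.Agent.P181.TL.DefsC
import Vale.Agent.P181.TL.H516.Grow

set_option autoImplicit false

/-! # P181, TLC, [GC]: `GrowC` (helper447; on helper516's growth lemma) -/

namespace Vale.Agent.P181.TL.H447

open Vale.Agent.P181.TL.H516

/-- the growth from `6 t ≤ X² a` -/
theorem core (a b q X t : ℕ) (ha : 0 < a) (hq : 5 ≤ q) (hX1 : 1 ≤ X) (h3 : 6 * t ≤ X ^ 2 * a)
    (hb : b ≤ t + a) (hat : 2 * a ≤ t) :
    (a + b).choose a * (a + t - 1).choose t ≤ X ^ ((q - 1) * a) := by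
  have hc2 : (a + t - 1).choose t ≤ (a + t).choose a := by
    have e1 : (a + t).choose a = (a + t).choose t := Nat.choose_symm_add
    rw [e1]
    exact Nat.choose_le_choose t (Nat.sub_le _ _)
  have hA := choose_mul_pow_le (a + b) a
  have hB := choose_mul_pow_le (a + t) a
  have haR : (0 : ℝ) < a := by exact_mod_cast ha
  have hapow : (0 : ℝ) < (a : ℝ) ^ a := by positivity
  have hkey : (((a + b).choose a * (a + t - 1).choose t : ℕ) : ℝ) * ((a : ℝ) ^ a * (a : ℝ) ^ a)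
      ≤ ((X : ℝ) ^ 4 * (a * a)) ^ a := by
    calc (((a + b).choose a * (a + t - 1).choose t : ℕ) : ℝ) * ((a : ℝ) ^ a * (a : ℝ) ^ a)
        ≤ (((a + b).choose a * (a + t).choose a : ℕ) : ℝ) * ((a : ℝ) ^ a * (a : ℝ) ^ a) := by
          refine mul_le_mul_of_nonneg_right ?_ (by positivity)
          exact_mod_cast Nat.mul_le_mul_left _ hc2
      _ = ((((a + b).choose a : ℕ) : ℝ) * (a : ℝ) ^ a) *
          ((((a + t).choose a : ℕ) : ℝ) * (a : ℝ) ^ a) := by push_cast; ring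
      _ ≤ (3 * ((a + b : ℕ) : ℝ)) ^ a * (3 * ((a + t : ℕ) : ℝ)) ^ a :=
          mul_le_mul hA hB (by positivity) (by positivity)
      _ = ((3 * ((a + b : ℕ) : ℝ)) * (3 * ((a + t : ℕ) : ℝ))) ^ a := (mul_pow _ _ _).symm
      _ ≤ ((X : ℝ) ^ 4 * (a * a)) ^ a := by
          refine pow_le_pow_left₀ (by positivity) ?_ a
          have h6 : (6 * (t : ℝ)) ≤ (X : ℝ) ^ 2 * a := by exact_mod_cast h3
          have h7 : ((a + b : ℕ) : ℝ) ≤ 2 * (t : ℝ) := by
            have : a + b ≤ 2 * t := by omega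
            exact_mod_cast this
          have h8 : ((a + t : ℕ) : ℝ) ≤ 2 * (t : ℝ) := by
            have : a + t ≤ 2 * t := by omega
            exact_mod_cast this
          calc (3 * ((a + b : ℕ) : ℝ)) * (3 * ((a + t : ℕ) : ℝ))
              ≤ (6 * (t : ℝ)) * (6 * (t : ℝ)) := by
                refine mul_le_mul ?_ ?_ (by positivity) (by positivity) <;> linarith
            _ ≤ ((X : ℝ) ^ 2 * a) * ((X : ℝ) ^ 2 * a) :=
                mul_le_mul h6 h6 (by positivity) (by positivity)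
            _ = (X : ℝ) ^ 4 * (a * a) := by ring
  have hfin : (((a + b).choose a * (a + t - 1).choose t : ℕ) : ℝ) ≤ ((X : ℝ) ^ 4) ^ a := by
    have e : ((X : ℝ) ^ 4 * (a * a)) ^ a = ((X : ℝ) ^ 4) ^ a * ((a : ℝ) ^ a * (a : ℝ) ^ a) := by
      rw [mul_pow, mul_pow]
    rw [e] at hkey
    exact le_of_mul_le_mul_right hkey (by positivity)
  have hnat : (a + b).choose a * (a + t - 1).choose t ≤ (X ^ 4) ^ a := by exact_mod_cast hfin
  refine hnat.trans ?_
  rw [← pow_mul]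
  exact Nat.pow_le_pow_right hX1 (Nat.mul_le_mul_right a (by omega))

/-- first alternative (the estimate of `growB`) -/
theorem alt1 {a q m t : ℕ} (ha : 0 < a) (hq : 5 ≤ q) (hm : 8 * q ≤ m)
    (ht : 10 ^ 6 * (m * q ^ 2) ^ 2 * a ≤ t) :
    1 ≤ t / a / q / (2 * m * q) ∧ 6 * t ≤ (t / a / q / (2 * m * q)) ^ 2 * a := by
  set Y := m * q ^ 2 with hY
  have hY1 : 1 ≤ Y := by
    have : 0 < m := by omega
    have : 0 < q := by omega
    exact Nat.succ_le_of_lt (by positivity)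
  set X := t / a / q / (2 * m * q) with hX
  have hXe : X = t / (2 * Y * a) := by
    rw [hX, Nat.div_div_eq_div_mul, Nat.div_div_eq_div_mul, hY]
    congr 1
    ring
  have hpos : 0 < 2 * Y * a := by positivity
  have h1 : t < (X + 1) * (2 * Y * a) := by
    rw [hXe]
    exact (Nat.div_lt_iff_lt_mul hpos).1 (Nat.lt_succ_self _)
  have h2 : 500000 * Y ≤ X := by
    rw [hXe, Nat.le_div_iff_mul_le hpos]
    calc 500000 * Y * (2 * Y * a) = 10 ^ 6 * Y ^ 2 * a := by ring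
      _ ≤ t := ht
  refine ⟨by omega, ?_⟩
  have h5 : 12 * (X + 1) * Y ≤ X ^ 2 := by nlinarith
  calc 6 * t ≤ 6 * ((X + 1) * (2 * Y * a)) := by omega
    _ = (12 * (X + 1) * Y) * a := by ring
    _ ≤ X ^ 2 * a := Nat.mul_le_mul_right a h5

/-- second alternative -/
theorem alt2 {a q m t : ℕ} (ha : 0 < a) (hq : q = 5 + 16 * t / a ^ 2) (hm : 8 * q ≤ m)
    (h10 : 10 * m ^ 4 * q ≤ a) : 1 ≤ a / (2 * m ^ 2) ∧ 6 * t ≤ (a / (2 * m ^ 2)) ^ 2 * a := by
  have hq5 : 5 ≤ q := by rw [hq]; exact Nat.le_add_right _ _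
  have hm0 : 0 < m := by omega
  set Z := 2 * m ^ 2 with hZ
  have hZ0 : 0 < Z := by positivity
  have hZ2 : 1 ≤ Z * q := Nat.succ_le_of_lt (by positivity)
  set X := a / Z with hX
  have h1 : a < (X + 1) * Z := (Nat.div_lt_iff_lt_mul hZ0).1 (Nat.lt_succ_self _)
  have h2 : 2 * (Z * q) ≤ X := by
    rw [hX, Nat.le_div_iff_mul_le hZ0]
    calc 2 * (Z * q) * Z = 8 * m ^ 4 * q := by rw [hZ]; ring
      _ ≤ 10 * m ^ 4 * q := by
          exact Nat.mul_le_mul_right q (Nat.mul_le_mul_right _ (by norm_num))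
      _ ≤ a := h10
  have h3 : 16 * t < (q - 4) * a ^ 2 := by
    have ha2 : 0 < a ^ 2 := by positivity
    have h4 : 16 * t / a ^ 2 < q - 4 := by omega
    exact (Nat.div_lt_iff_lt_mul ha2).1 h4
  refine ⟨by omega, ?_⟩
  have h4 : q * a ≤ X ^ 2 := by
    have h5 : q * a ≤ (X + 1) * (Z * q) := by
      calc q * a ≤ q * ((X + 1) * Z) := Nat.mul_le_mul_left q h1.le
        _ = (X + 1) * (Z * q) := by ring
    have h6 : (X + 1) * (Z * q) ≤ X ^ 2 := by nlinarith
    exact h5.trans h6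
  have h7 : 16 * t ≤ X ^ 2 * a := by
    calc 16 * t ≤ (q - 4) * a ^ 2 := h3.le
      _ ≤ q * a ^ 2 := Nat.mul_le_mul_right _ (Nat.sub_le _ _)
      _ = q * a * a := by ring
      _ ≤ X ^ 2 * a := Nat.mul_le_mul_right a h4
  omega

theorem growC : GrowC := by
  intro a b q m t ha hq hm h10 hb ht
  have hq5 : 5 ≤ q := by rw [hq]; exact Nat.le_add_right _ _
  obtain ⟨h1, h2⟩ := alt1 ha hq5 hm ht
  obtain ⟨h3, h4⟩ := alt2 ha hq hm h10
  have hat : 2 * a ≤ t := by
    refine le_trans ?_ ht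
    have hY1 : 1 ≤ (m * q ^ 2) ^ 2 := by
      have : 0 < m := by omega
      have : 0 < q := by omega
      exact Nat.succ_le_of_lt (by positivity)
    nlinarith
  rcases min_choice (t / a / q / (2 * m * q)) (a / (2 * m ^ 2)) with h | h
  · rw [h]
    exact core a b q _ t ha hq5 h1 h2 hb hat
  · rw [h]
    exact core a b q _ t ha hq5 h3 h4 hb hat

end Vale.Agent.P181.TL.H447
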